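import Mathlib.MeasureTheory.Integral.Prod
import Mathlib.MeasureTheory.Integral.DominatedConvergence
import Vale.Agent.P272.K.INT.Dens

/-! # Integrals of families of densities over a compact manifold

Continuity in the parameter, Fubini, dominated convergence for `INT.intX`. -/

open scoped Manifold ContDiff Topology
open MeasureTheory Set Filter Vale.Agent.P272.K Vale.Agent.P272.K.INT

noncomputable section

namespace Vale.Agent.P284.H619.D

variable {n : ℕ} {X : Type*} [TopologicalSpace X] [ChartedSpace (Cm n) X]

/-- a jointly continuous family -/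
def PCont {T : Type*} [TopologicalSpace T] (D : T → Chart n X → Cm n → ℝ) : Prop :=
  ∀ e x, At e x → ∀ t, ContinuousAt (fun q : T × Cm n => D q.1 e q.2) (t, e x)

section basic

variable {T : Type*} [TopologicalSpace T] {D D' : T → Chart n X → Cm n → ℝ}

theorem PCont.contAt (h : PCont D) {e : Chart n X} (he : e ∈ atlas (Cm n) X) (t : T)
    {z : Cm n} (hz : z ∈ e.target) : ContinuousAt (fun q : T × Cm n => D q.1 e q.2) (t, z) := by
  have := h e (e.symm z) ⟨he, e.map_target hz⟩ t
  rwa [e.right_inv hz] at this

theorem PCont.contOn (h : PCont D) {e : Chart n X} (he : e ∈ atlas (Cm n) X) :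
    ContinuousOn (fun q : T × Cm n => D q.1 e q.2) (univ ×ˢ e.target) := fun q hq =>
  (h.contAt he q.1 hq.2).continuousWithinAt

theorem PCont.at_t (h : PCont D) (t : T) {e : Chart n X} {x : X} (hx : At e x) :
    ContinuousAt (D t e) (e x) :=
  ContinuousAt.comp (f := fun y : Cm n => (t, y)) (h e x hx t) (by fun_prop)

theorem PCont.at_y (h : PCont D) {e : Chart n X} (he : e ∈ atlas (Cm n) X)
    {z : Cm n} (hz : z ∈ e.target) : Continuous (fun t => D t e z) :=
  continuous_iff_continuousAt.2 fun t =>
    ContinuousAt.comp (f := fun t : T => (t, z)) (h.contAt he t hz) (by fun_prop)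

theorem PCont.comp {S : Type*} [TopologicalSpace S] (h : PCont D) {g : S → T}
    (hg : Continuous g) : PCont (fun s => D (g s)) := fun e x hx s =>
  ContinuousAt.comp (f := fun q : S × Cm n => (g q.1, q.2)) (x := (s, e x)) (h e x hx (g s))
    ((hg.comp continuous_fst).prodMk continuous_snd).continuousAt

theorem PCont.const {E : Chart n X → Cm n → ℝ} (h : ∀ e x, At e x → ContinuousAt (E e) (e x)) :
    PCont (fun _ : T => E) := fun e x hx t =>
  ContinuousAt.comp (f := fun q : T × Cm n => q.2) (h e x hx) (by fun_prop)

theorem PCont.add (h : PCont D) (h' : PCont D') : PCont (fun t e z => D t e z + D' t e z) :=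
  fun e x hx t => (h e x hx t).add (h' e x hx t)

theorem PCont.sub (h : PCont D) (h' : PCont D') : PCont (fun t e z => D t e z - D' t e z) :=
  fun e x hx t => (h e x hx t).sub (h' e x hx t)

theorem PCont.neg (h : PCont D) : PCont (fun t e z => -D t e z) :=
  fun e x hx t => (h e x hx t).neg

theorem PCont.mul (h : PCont D) (h' : PCont D') : PCont (fun t e z => D t e z * D' t e z) :=
  fun e x hx t => (h e x hx t).mul (h' e x hx t)

theorem PCont.abs (h : PCont D) : PCont (fun t e z => |D t e z|) :=
  fun e x hx t => (h e x hx t).abs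

theorem PCont.sum {ι : Type*} {s : Finset ι} {E : ι → T → Chart n X → Cm n → ℝ}
    (h : ∀ i ∈ s, PCont (E i)) : PCont (fun t e z => ∑ i ∈ s, E i t e z) :=
  fun e x hx t => by
    have := tendsto_finsetSum s fun i hi => (h i hi e x hx t)
    exact this

/-- multiplication by a continuous function of the parameter and the point -/
theorem PCont.smul (h : PCont D) {f : T → X → ℝ} (hf : Continuous (fun q : T × X => f q.1 q.2)) :
    PCont (fun t e z => f t (e.symm z) * D t e z) := fun e x hx t => by
  refine ContinuousAt.mul ?_ (h e x hx t)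
  have h1 : ContinuousAt (fun q : T × Cm n => (q.1, e.symm q.2)) (t, e x) := by
    refine ContinuousAt.prodMk continuousAt_fst ?_
    exact (e.continuousAt_symm (e.map_source hx.2)).comp (f := fun q : T × Cm n => q.2)
      (x := (t, e x)) continuousAt_snd
  exact ContinuousAt.comp (f := fun q : T × Cm n => (q.1, e.symm q.2)) (hf.continuousAt) h1

/-- local bounds for a jointly continuous family over a compact set of parameters -/
theorem PCont.bdd {T : Type*} [TopologicalSpace T] {D : T → Chart n X → Cm n → ℝ}
    {K : Set T} (h : PCont D) (hK : IsCompact K) {e : Chart n X} (he : e ∈ atlas (Cm n) X)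
    {L : Set (Cm n)} (hL : IsCompact L) (hLe : L ⊆ e.target) :
    ∃ M : ℝ, 0 ≤ M ∧ ∀ t ∈ K, ∀ z ∈ L, |D t e z| ≤ M := by
  obtain ⟨M, hM⟩ := (hK.prod hL).exists_bound_of_continuousOn
    (f := fun q : T × Cm n => D q.1 e q.2) ((h.contOn he).mono (prod_mono (subset_univ _) hLe))
  refine ⟨max M 0, le_max_right _ _, fun t ht z hz => ?_⟩
  exact (hM (t, z) ⟨ht, hz⟩).trans (le_max_left _ _)

end basic

section pieces

variable [IsManifold 𝓘(ℂ, Cm n) ω X] [T2Space X] [CompactSpace X]

variable (n X) in
/-- the compact support of the `i`-th piece, in its chart -/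
def KK (i : Fin (part n X).N) : Set (Cm n) :=
  ((part n X).e i) '' tsupport ((part n X).ρ i)

variable (n X) in
/-- the weight of the `i`-th piece -/
def pw (i : Fin (part n X).N) (z : Cm n) : ℝ := (part n X).ρ i (((part n X).e i).symm z)

/-- the `i`-th piece, extended by zero -/
def piece (D : Chart n X → Cm n → ℝ) (i : Fin (part n X).N) (z : Cm n) : ℝ :=
  (KK n X i).indicator (fun z => pw n X i z * D ((part n X).e i) z) z

theorem isCompact_KK (i : Fin (part n X).N) : IsCompact (KK n X i) :=
  (isClosed_tsupport ((part n X).ρ i)).isCompact.image_of_continuousOn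
    (((part n X).e i).continuousOn.mono ((part n X).supp i))

theorem KK_subset (i : Fin (part n X).N) : KK n X i ⊆ ((part n X).e i).target := by
  rintro _ ⟨x, hx, rfl⟩; exact ((part n X).e i).map_source ((part n X).supp i hx)

theorem pw_off (i : Fin (part n X).N) {z : Cm n} (hz : z ∈ ((part n X).e i).target)
    (h : z ∉ KK n X i) : pw n X i z = 0 :=
  image_eq_zero_of_notMem_tsupport (f := (part n X).ρ i)
    fun h' => h ⟨_, h', ((part n X).e i).right_inv hz⟩

theorem pw_nonneg (i : Fin (part n X).N) (z : Cm n) : 0 ≤ pw n X i z := (part n X).nonneg i _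

theorem pw_le_one (i : Fin (part n X).N) (z : Cm n) : pw n X i z ≤ 1 := by
  have h := (part n X).sum (((part n X).e i).symm z)
  rw [← h]
  exact Finset.single_le_sum (f := fun j => (part n X).ρ j (((part n X).e i).symm z))
    (fun j _ => (part n X).nonneg j _) (Finset.mem_univ i)

theorem pw_contAt (i : Fin (part n X).N) {z : Cm n} (hz : z ∈ ((part n X).e i).target) :
    ContinuousAt (pw n X i) z :=
  ((part n X).cont i).continuousAt.comp (((part n X).e i).continuousAt_symm hz)

/-- **the integral over `X` is a finite sum of integrals over compact subsets of chart images** -/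
theorem intX_eq_sum (D : Chart n X → Cm n → ℝ) :
    intX D = ∑ i, ∫ z in KK n X i, pw n X i z * D ((part n X).e i) z := by
  unfold intX
  refine Finset.sum_congr rfl fun i _ => ?_
  apply setIntegral_eq_of_subset_of_forall_sdiff_eq_zero
    ((part n X).e i).open_target.measurableSet (KK_subset i)
  intro z hz
  have := pw_off i hz.1 hz.2
  unfold pw at this
  rw [this, zero_mul]

theorem intX_eq_pieces (D : Chart n X → Cm n → ℝ) :
    intX D = ∑ i, ∫ z, piece D i z := by
  rw [intX_eq_sum]
  refine Finset.sum_congr rfl fun i _ => ?_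
  unfold piece
  rw [integral_indicator (isCompact_KK i).measurableSet]

theorem piece_off (D : Chart n X → Cm n → ℝ) (i : Fin (part n X).N) {z : Cm n}
    (h : z ∉ KK n X i) : piece D i z = 0 := indicator_of_notMem h _

theorem piece_eq (D : Chart n X → Cm n → ℝ) (i : Fin (part n X).N) {z : Cm n}
    (h : z ∈ ((part n X).e i).target) :
    piece D i z = pw n X i z * D ((part n X).e i) z := by
  unfold piece
  by_cases hz : z ∈ KK n X i
  · rw [indicator_of_mem hz]
  · rw [indicator_of_notMem hz, pw_off i h hz, zero_mul]

variable {T : Type*} [TopologicalSpace T] {D : T → Chart n X → Cm n → ℝ}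

/-- the pieces of a jointly continuous family are continuous functions of parameter and point -/
theorem PCont.piece (h : PCont D) (i : Fin (part n X).N) :
    Continuous (fun q : T × Cm n => piece (D q.1) i q.2) := by
  rw [continuous_iff_continuousAt]
  rintro ⟨t, z⟩
  by_cases hz : z ∈ ((part n X).e i).target
  · have h1 : ContinuousAt (fun q : T × Cm n => pw n X i q.2 * D q.1 ((part n X).e i) q.2)
        (t, z) := by
      refine ContinuousAt.mul ?_ (h.contAt ((part n X).mem i) t hz)
      exact (pw_contAt i hz).comp (f := fun q : T × Cm n => q.2) (x := (t, z)) continuousAt_snd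
    refine h1.congr ?_
    have h2 : ∀ᶠ q : T × Cm n in 𝓝 (t, z), q.2 ∈ ((part n X).e i).target :=
      continuousAt_snd.eventually (((part n X).e i).open_target.mem_nhds hz)
    filter_upwards [h2] with q hq
    exact (piece_eq (D q.1) i hq).symm
  · have hz' : z ∉ KK n X i := fun h => hz (KK_subset i h)
    have h2 : ∀ᶠ q : T × Cm n in 𝓝 (t, z), q.2 ∈ (KK n X i)ᶜ :=
      continuousAt_snd.eventually ((isCompact_KK i).isClosed.isOpen_compl.mem_nhds hz')
    refine (continuousAt_const (y := (0 : ℝ))).congr ?_
    filter_upwards [h2] with q hq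
    exact (piece_off (D q.1) i hq).symm

/-- **(1) the integral depends continuously on the parameter** -/
theorem continuous_intX (h : PCont D) : Continuous fun t => intX (D t) := by
  simp only [intX_eq_pieces]
  refine continuous_finsetSum _ fun i _ => ?_
  rw [← continuousOn_univ]
  refine continuousOn_integral_of_compact_support (k := KK n X i) (isCompact_KK i) ?_ ?_
  · exact (h.piece i).continuousOn
  · intro t z _ hz
    exact piece_off (D t) i hz

end pieces

section fubini

variable {T : Type*} [TopologicalSpace T] [MeasurableSpace T] [OpensMeasurableSpace T]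
  {μ : Measure T} {D : T → Chart n X → Cm n → ℝ} {χ : T → ℝ}
  {K : Set T}

/-- **(2a) integrating a family of densities gives a density** -/
theorem isDensity_int (h : PCont D) (hD : ∀ t, IsDensity (D t)) (hK : IsCompact K)
    (hχ : Integrable χ μ) (hχK : ∀ t, t ∉ K → χ t = 0) :
    IsDensity (fun e y => ∫ t, χ t * D t e y ∂μ) where
  cont e x hx := by
    obtain ⟨L, hL, hxL, hLe⟩ := exists_compact_subset e.open_target (e.map_source hx.2)
    obtain ⟨M, hM0, hM⟩ := h.bdd hK hx.1 hL hLe
    have hLn : L ∈ 𝓝 (e x) := mem_interior_iff_mem_nhds.1 hxL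
    refine continuousAt_of_dominated (bound := fun t => M * |χ t|) ?_ ?_ ?_ ?_
    · filter_upwards [hLn] with y hy
      exact hχ.aestronglyMeasurable.mul (h.at_y hx.1 (hLe hy)).aestronglyMeasurable
    · filter_upwards [hLn] with y hy
      refine Eventually.of_forall fun t => ?_
      rw [norm_mul, Real.norm_eq_abs, Real.norm_eq_abs, mul_comm M]
      by_cases ht : t ∈ K
      · exact mul_le_mul_of_nonneg_left (hM t ht y hy) (abs_nonneg _)
      · rw [hχK t ht, abs_zero, zero_mul, zero_mul]
    · exact hχ.abs.const_mul M
    · exact Eventually.of_forall fun t => continuousAt_const.mul (h.at_t t hx)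
  change e e' x hx hx' := by
    rw [← integral_mul_const]
    refine integral_congr_ae (Eventually.of_forall fun t => ?_)
    show χ t * D t e (e x) = χ t * D t e' (e' x) * _
    rw [(hD t).change e e' x hx hx']
    ring

variable [IsManifold 𝓘(ℂ, Cm n) ω X] [T2Space X] [CompactSpace X]

theorem integrable_piece [SFinite μ] (h : PCont D) (hK : IsCompact K) (hχ : Integrable χ μ)
    (hχK : ∀ t, t ∉ K → χ t = 0) (i : Fin (part n X).N) :
    Integrable (fun q : T × Cm n => χ q.1 * piece (D q.1) i q.2) (μ.prod volume) := by
  obtain ⟨M, hM0, hM⟩ := h.bdd hK ((part n X).mem i) (isCompact_KK i) (KK_subset i)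
  have h1 : Integrable (fun q : T × Cm n => (M * |χ q.1|) *
      (KK n X i).indicator (fun _ => (1 : ℝ)) q.2) (μ.prod volume) := by
    refine Integrable.mul_prod (hχ.abs.const_mul M) ?_
    rw [integrable_indicator_iff (isCompact_KK i).measurableSet]
    exact continuousOn_const.integrableOn_compact (isCompact_KK i)
  refine h1.mono' ?_ (Eventually.of_forall ?_)
  · exact (hχ.aestronglyMeasurable.comp_fst).mul (h.piece i).aestronglyMeasurable
  · rintro ⟨t, z⟩
    show ‖χ t * Vale.Agent.P284.H619.D.piece (D t) i z‖ ≤ M * |χ t| * (KK n X i).indicator (fun _ => (1 : ℝ)) z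
    rw [norm_mul, Real.norm_eq_abs, Real.norm_eq_abs]
    by_cases hz : z ∈ KK n X i
    · rw [indicator_of_mem hz, mul_one, piece_eq (D t) i (KK_subset i hz), mul_comm M]
      by_cases ht : t ∈ K
      · refine mul_le_mul_of_nonneg_left ?_ (abs_nonneg _)
        rw [abs_mul, abs_of_nonneg (pw_nonneg i z)]
        exact (mul_le_of_le_one_left (abs_nonneg _) (pw_le_one i z)).trans (hM t ht z hz)
      · rw [hχK t ht, abs_zero, zero_mul, zero_mul]
    · rw [indicator_of_notMem hz, piece_off (D t) i hz, abs_zero, mul_zero, mul_zero]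

/-- **(2b) Fubini** -/
theorem int_intX [SFinite μ] (h : PCont D) (hK : IsCompact K) (hχ : Integrable χ μ)
    (hχK : ∀ t, t ∉ K → χ t = 0) :
    Integrable (fun t => χ t * intX (D t)) μ ∧
      ∫ t, χ t * intX (D t) ∂μ = intX (fun e y => ∫ t, χ t * D t e y ∂μ) := by
  have hi := integrable_piece (μ := μ) h hK hχ hχK
  have h1 : ∀ t, χ t * intX (D t) = ∑ i, ∫ z, χ t * piece (D t) i z := by
    intro t
    rw [intX_eq_pieces, Finset.mul_sum]
    exact Finset.sum_congr rfl fun i _ => (integral_const_mul _ _).symm
  constructor
  · simp only [h1]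
    exact integrable_finsetSum _ fun i _ => (hi i).integral_prod_left
  · simp only [h1]
    rw [integral_finsetSum _ fun i _ => (hi i).integral_prod_left, intX_eq_pieces]
    refine Finset.sum_congr rfl fun i _ => ?_
    rw [integral_integral_swap (f := fun t z => χ t * piece (D t) i z) (hi i)]
    refine integral_congr_ae (Eventually.of_forall fun z => ?_)
    show ∫ t, χ t * piece (D t) i z ∂μ = piece (fun e y => ∫ t, χ t * D t e y ∂μ) i z
    by_cases hz : z ∈ KK n X i
    · rw [piece_eq _ i (KK_subset i hz), ← integral_const_mul]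
      refine integral_congr_ae (Eventually.of_forall fun t => ?_)
      show χ t * piece (D t) i z = _
      rw [piece_eq _ i (KK_subset i hz)]
      ring
    · rw [piece_off _ i hz]
      simp only [piece_off _ i hz, mul_zero, integral_zero]

omit [IsManifold 𝓘(ℂ, Cm n) ω X] [T2Space X] [CompactSpace X] in
/-- a family integrated over a compact set of parameters is a density -/
theorem isDensity_setInt [IsFiniteMeasureOnCompacts μ] [T2Space T] (h : PCont D)
    (hD : ∀ t, IsDensity (D t)) (hK : IsCompact K) :
    IsDensity (fun e y => ∫ t in K, D t e y ∂μ) := by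
  have hχ : Integrable (K.indicator fun _ => (1 : ℝ)) μ := by
    rw [integrable_indicator_iff hK.measurableSet]
    exact continuousOn_const.integrableOn_compact hK
  have h1 := isDensity_int (μ := μ) h hD hK hχ fun t ht => indicator_of_notMem ht _
  have h2 : (fun (e : Chart n X) (y : Cm n) => ∫ t, (K.indicator fun _ => (1 : ℝ)) t * D t e y ∂μ) =
      fun e y => ∫ t in K, D t e y ∂μ := by
    funext e y
    rw [← integral_indicator hK.measurableSet]
    refine integral_congr_ae (Eventually.of_forall fun t => ?_)
    show K.indicator (fun _ => (1 : ℝ)) t * D t e y = K.indicator (fun t => D t e y) t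
    by_cases ht : t ∈ K
    · rw [indicator_of_mem ht, indicator_of_mem ht, one_mul]
    · rw [indicator_of_notMem ht, indicator_of_notMem ht, zero_mul]
  rwa [h2] at h1

/-- Fubini over a compact set of parameters -/
theorem setInt_intX [SFinite μ] [IsFiniteMeasureOnCompacts μ] [T2Space T] (h : PCont D)
    (hK : IsCompact K) :
    IntegrableOn (fun t => intX (D t)) K μ ∧
      ∫ t in K, intX (D t) ∂μ = intX (fun e y => ∫ t in K, D t e y ∂μ) := by
  have hχ : Integrable (K.indicator fun _ => (1 : ℝ)) μ := by
    rw [integrable_indicator_iff hK.measurableSet]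
    exact continuousOn_const.integrableOn_compact hK
  have h1 := int_intX (μ := μ) h hK hχ fun t ht => indicator_of_notMem ht _
  have h0 : ∀ g : T → ℝ, (fun t => (K.indicator fun _ => (1 : ℝ)) t * g t) = K.indicator g := by
    intro g
    funext t
    by_cases ht : t ∈ K
    · rw [indicator_of_mem ht, indicator_of_mem ht, one_mul]
    · rw [indicator_of_notMem ht, indicator_of_notMem ht, zero_mul]
  have h2 : (fun (e : Chart n X) (y : Cm n) => ∫ t, (K.indicator fun _ => (1 : ℝ)) t * D t e y ∂μ) =
      fun e y => ∫ t in K, D t e y ∂μ := by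
    funext e y
    rw [h0, integral_indicator hK.measurableSet]
  rw [h2, h0, integral_indicator hK.measurableSet, integrable_indicator_iff hK.measurableSet] at h1
  exact h1

/-- Fubini against a continuous function with compact support -/
theorem int_intX_cs [SFinite μ] [IsFiniteMeasureOnCompacts μ] [T2Space T] (h : PCont D)
    (hχ : Continuous χ) (hs : HasCompactSupport χ) :
    Integrable (fun t => χ t * intX (D t)) μ ∧
      ∫ t, χ t * intX (D t) ∂μ = intX (fun e y => ∫ t, χ t * D t e y ∂μ) :=
  int_intX h hs (hχ.integrable_of_hasCompactSupport hs)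
    fun _ ht => image_eq_zero_of_notMem_tsupport ht

omit [IsManifold 𝓘(ℂ, Cm n) ω X] [T2Space X] [CompactSpace X] in
theorem isDensity_int_cs [IsFiniteMeasureOnCompacts μ] [T2Space T] (h : PCont D)
    (hD : ∀ t, IsDensity (D t)) (hχ : Continuous χ) (hs : HasCompactSupport χ) :
    IsDensity (fun e y => ∫ t, χ t * D t e y ∂μ) :=
  isDensity_int h hD hs (hχ.integrable_of_hasCompactSupport hs)
    fun _ ht => image_eq_zero_of_notMem_tsupport ht

end fubini

section interval

variable {T : Type*} [TopologicalSpace T]

/-- joint continuity is kept by integration over a compact set of further parameters -/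
theorem PCont.setInt {S : Type*} [TopologicalSpace S] [MeasurableSpace S]
    [OpensMeasurableSpace S] {μ : Measure S} [IsFiniteMeasureOnCompacts μ] {K : Set S}
    {D : S → T → Chart n X → Cm n → ℝ} (h : PCont (fun q : S × T => D q.1 q.2))
    (hK : IsCompact K) (hKm : MeasurableSet K) [FirstCountableTopology T] :
    PCont (fun t e y => ∫ s in K, D s t e y ∂μ) := by
  intro e x hx t
  have hc : ∀ s, ContinuousAt (fun q : S × (T × Cm n) => D q.1 q.2.1 e q.2.2) (s, (t, e x)) :=
    fun s => ContinuousAt.comp (f := fun q : S × (T × Cm n) => ((q.1, q.2.1), q.2.2))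
      (x := (s, (t, e x))) (h e x hx (s, t)) (by fun_prop)
  have hcs : Continuous fun s => D s t e (e x) := continuous_iff_continuousAt.2 fun s =>
    ContinuousAt.comp (f := fun s : S => (s, (t, e x))) (hc s) (by fun_prop)
  obtain ⟨M, hM⟩ := hK.exists_bound_of_continuousOn hcs.continuousOn
  have hb : ∀ᶠ q : T × Cm n in 𝓝 (t, e x), ∀ s ∈ K, |D s q.1 e q.2| ≤ M + 1 := by
    refine hK.eventually_forall_of_forall_eventually
      (P := fun (q : T × Cm n) (s : S) => |D s q.1 e q.2| ≤ M + 1) fun s hs => ?_
    have h1 : ContinuousAt (fun p : (T × Cm n) × S => |D p.2 p.1.1 e p.1.2|) ((t, e x), s) :=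
      (ContinuousAt.comp (f := fun p : (T × Cm n) × S => (p.2, p.1)) (x := ((t, e x), s))
        (hc s) (by fun_prop)).abs
    have h2 : |D s t e (e x)| < M + 1 := by
      have := hM s hs
      rw [Real.norm_eq_abs] at this
      linarith
    filter_upwards [h1.eventually (gt_mem_nhds h2)] with p hp using hp.le
  have ht : ∀ᶠ q : T × Cm n in 𝓝 (t, e x), q.2 ∈ e.target :=
    continuousAt_snd.eventually (e.open_target.mem_nhds (e.map_source hx.2))
  refine continuousAt_of_dominated (F := fun (q : T × Cm n) (s : S) => D s q.1 e q.2)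
    (bound := fun _ => M + 1) ?_ ?_ ?_ ?_
  · filter_upwards [ht] with q hq
    have : Continuous fun s => D s q.1 e q.2 := continuous_iff_continuousAt.2 fun s =>
      ContinuousAt.comp (f := fun s : S => ((s, q.1), q.2)) (h.contAt hx.1 (s, q.1) hq)
        (by fun_prop)
    exact this.aestronglyMeasurable
  · filter_upwards [hb] with q hq
    filter_upwards [ae_restrict_mem hKm] with s hs using hq s hs
  · exact integrableOn_const hK.measure_lt_top.ne
  · exact Eventually.of_forall fun s =>
      ContinuousAt.comp (f := fun q : T × Cm n => (s, q)) (hc s) (by fun_prop)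

theorem PCont.interval {D : ℝ → T → Chart n X → Cm n → ℝ}
    (h : PCont (fun q : ℝ × T => D q.1 q.2)) {a b : ℝ} (hab : a ≤ b)
    [FirstCountableTopology T] : PCont (fun t e y => ∫ s in a..b, D s t e y) := by
  have := h.setInt (μ := volume) (K := Icc a b) isCompact_Icc measurableSet_Icc
  simpa only [intervalIntegral.integral_of_le hab, integral_Icc_eq_integral_Ioc] using this

theorem isDensity_interval {D : ℝ → Chart n X → Cm n → ℝ} (h : PCont D)
    (hD : ∀ s, IsDensity (D s)) {a b : ℝ} (hab : a ≤ b) :
    IsDensity (fun e y => ∫ s in a..b, D s e y) := by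
  have := isDensity_setInt (μ := volume) h hD (isCompact_Icc (a := a) (b := b))
  simpa only [intervalIntegral.integral_of_le hab, integral_Icc_eq_integral_Ioc] using this

theorem interval_intX [IsManifold 𝓘(ℂ, Cm n) ω X] [T2Space X] [CompactSpace X]
    {D : ℝ → Chart n X → Cm n → ℝ} (h : PCont D) {a b : ℝ} (hab : a ≤ b) :
    ∫ s in a..b, intX (D s) = intX (fun e y => ∫ s in a..b, D s e y) := by
  have := (setInt_intX (μ := volume) h (isCompact_Icc (a := a) (b := b))).2
  simpa only [intervalIntegral.integral_of_le hab, integral_Icc_eq_integral_Ioc] using this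

end interval

section matrices

variable {T : Type*} [TopologicalSpace T] {m : ℕ}

/-- jointly continuous families of matrices -/
def MCont (F : T → Chart n X → Cm n → Matrix (Fin m) (Fin m) ℂ) : Prop :=
  ∀ e x, At e x → ∀ t, ContinuousAt (fun q : T × Cm n => F q.1 e q.2) (t, e x)

variable {F G : T → Chart n X → Cm n → Matrix (Fin m) (Fin m) ℂ}

theorem MCont.of_entries (h : ∀ i j, ∀ e x, At e x → ∀ t,
    ContinuousAt (fun q : T × Cm n => F q.1 e q.2 i j) (t, e x)) : MCont F :=
  fun e x hx t => continuousAt_pi.2 fun i => continuousAt_pi.2 fun j => h i j e x hx t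

theorem MCont.entry (h : MCont F) (i j : Fin m) {e : Chart n X} {x : X} (hx : At e x) (t : T) :
    ContinuousAt (fun q : T × Cm n => F q.1 e q.2 i j) (t, e x) :=
  continuousAt_pi.1 (continuousAt_pi.1 (h e x hx t) i) j

theorem MCont.add (h : MCont F) (h' : MCont G) : MCont (fun t e y => F t e y + G t e y) :=
  fun e x hx t => (h e x hx t).add (h' e x hx t)

theorem MCont.sub (h : MCont F) (h' : MCont G) : MCont (fun t e y => F t e y - G t e y) :=
  fun e x hx t => (h e x hx t).sub (h' e x hx t)

theorem MCont.smul {c : T → ℂ} (hc : Continuous c) (h : MCont F) :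
    MCont (fun t e y => c t • F t e y) :=
  fun e x hx t => by
    have h1 : ContinuousAt (fun q : T × Cm n => c q.1) (t, e x) :=
      (hc.comp continuous_fst).continuousAt
    exact h1.smul (h e x hx t)

theorem MCont.comp {S : Type*} [TopologicalSpace S] (h : MCont F) {g : S → T}
    (hg : Continuous g) : MCont (fun s => F (g s)) := fun e x hx s =>
  ContinuousAt.comp (f := fun q : S × Cm n => (g q.1, q.2)) (x := (s, e x)) (h e x hx (g s))
    ((hg.comp continuous_fst).prodMk continuous_snd).continuousAt

theorem MCont.const {E : Chart n X → Cm n → Matrix (Fin m) (Fin m) ℂ}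
    (h : ∀ e x, At e x → ∀ i j, ContinuousAt (fun y => E e y i j) (e x)) :
    MCont (fun _ : T => E) := MCont.of_entries fun i j e x hx t =>
  ContinuousAt.comp (f := fun q : T × Cm n => q.2) (x := (t, e x)) (h e x hx i j)
    continuousAt_snd

theorem MCont.sum {ι : Type*} {s : Finset ι}
    {E : ι → T → Chart n X → Cm n → Matrix (Fin m) (Fin m) ℂ}
    (h : ∀ i ∈ s, MCont (E i)) : MCont (fun t e y => ∑ i ∈ s, E i t e y) :=
  fun e x hx t => tendsto_finsetSum s fun i hi => (h i hi e x hx t)

theorem MCont.det (h : MCont F) {e : Chart n X} {x : X} (hx : At e x) (t : T) :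
    ContinuousAt (fun q : T × Cm n => (F q.1 e q.2).det) (t, e x) :=
  ContinuousAt.comp (g := fun M : Matrix (Fin m) (Fin m) ℂ => M.det)
    (f := fun q : T × Cm n => F q.1 e q.2)
    (Continuous.matrix_det (A := fun M : Matrix (Fin m) (Fin m) ℂ => M) continuous_id).continuousAt
    (h e x hx t)

/-- the real part of the determinant is jointly continuous -/
theorem MCont.det_re (h : MCont F) : PCont (fun t e y => (F t e y).det.re) :=
  fun _ _ hx t => (Complex.continuous_re.continuousAt).comp (h.det hx t)

theorem MCont.entry_re (h : MCont F) (i j : Fin m) : PCont (fun t e y => (F t e y i j).re) :=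
  fun _ _ hx t => (Complex.continuous_re.continuousAt).comp (h.entry i j hx t)

end matrices

end Vale.Agent.P284.H619.D
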