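import Vale.Agent.P272.K.N.Hess
import Vale.Agent.P284.H224.D.Defs
import Vale.Agent.P284.H619.D.Fub

/-! # Joint continuity of complex Hessians of smooth functions on `X × ℂᴿ` -/

open scoped Manifold ContDiff Topology
open MeasureTheory Set Filter Vale.Agent.P272.K Vale.Agent.P272.K.INT

noncomputable section

namespace Vale.Agent.P284.H619.D

section affine

variable {V : Type*} [NormedAddCommGroup V] [NormedSpace ℝ V] {m : ℕ}

theorem hasFDerivAt_aff {L : V → ℝ} {A : Cm m →L[ℝ] V} {b : V} {y : Cm m}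
    (h : DifferentiableAt ℝ L (A y + b)) :
    HasFDerivAt (fun y' => L (A y' + b)) ((fderiv ℝ L (A y + b)).comp A) y := by
  have h1 : HasFDerivAt (fun y' => A y' + b) A y := A.hasFDerivAt.add_const b
  exact HasFDerivAt.comp y (g := L) h.hasFDerivAt h1

/-- the second derivative along an affine map -/
theorem fderiv2_aff {L : V → ℝ} {A : Cm m →L[ℝ] V} {b : V} {y : Cm m}
    (h : ContDiffAt ℝ 2 L (A y + b)) :
    DifferentiableAt ℝ (fderiv ℝ fun y' => L (A y' + b)) y ∧
      ∀ u v, fderiv ℝ (fderiv ℝ fun y' => L (A y' + b)) y u v =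
        fderiv ℝ (fderiv ℝ L) (A y + b) (A u) (A v) := by
  have hc : ContinuousAt (fun y' : Cm m => A y' + b) y := by fun_prop
  have h1 : ∀ᶠ y' in 𝓝 y, fderiv ℝ (fun y' => L (A y' + b)) y' =
      (fderiv ℝ L (A y' + b)).comp A := by
    have h2 : ∀ᶠ p in 𝓝 (A y + b), ContDiffAt ℝ 2 L p := h.eventually (by simp)
    filter_upwards [hc.eventually h2] with y' hy'
    exact (hasFDerivAt_aff (hy'.differentiableAt (by simp))).fderiv
  have h3 : DifferentiableAt ℝ (fderiv ℝ L) (A y + b) :=
    (h.fderiv_right (m := 1) (by norm_num)).differentiableAt (by simp)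
  have h4 : HasFDerivAt (fun y' => fderiv ℝ L (A y' + b))
      ((fderiv ℝ (fderiv ℝ L) (A y + b)).comp A) y := by
    have h5 : HasFDerivAt (fun y' => A y' + b) A y := A.hasFDerivAt.add_const b
    exact HasFDerivAt.comp y (g := fderiv ℝ L) h3.hasFDerivAt h5
  have h6 : HasFDerivAt (fun y' => (fderiv ℝ L (A y' + b)).comp A)
      ((((ContinuousLinearMap.compL ℝ (Cm m) V ℝ).flip A)).comp
        ((fderiv ℝ (fderiv ℝ L) (A y + b)).comp A)) y := by
    have h7 := ((ContinuousLinearMap.compL ℝ (Cm m) V ℝ).flip A).hasFDerivAt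
      (x := fderiv ℝ L (A y + b))
    exact HasFDerivAt.comp y (g := ((ContinuousLinearMap.compL ℝ (Cm m) V ℝ).flip A)) h7 h4
  have h8 := h6.congr_of_eventuallyEq h1
  refine ⟨h8.differentiableAt, fun u v => ?_⟩
  rw [h8.fderiv]
  simp

variable {T : Type*} [TopologicalSpace T]

/-- **complex Hessians along moving affine maps are continuous** -/
theorem contAt_cHess_aff {L : V → ℝ} (A : Cm m →L[ℝ] V) {b : T → V} {ζ : T → Cm m} {t₀ : T}
    (hL : ContDiffAt ℝ 2 L (A (ζ t₀) + b t₀)) (hb : ContinuousAt b t₀)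
    (hζ : ContinuousAt ζ t₀) :
    ContinuousAt (fun t => cHess (fun y => L (A y + b t)) (ζ t)) t₀ := by
  have hp : ContinuousAt (fun t => A (ζ t) + b t) t₀ :=
    (A.continuous.continuousAt.comp hζ).add hb
  have h1 : ∀ᶠ t in 𝓝 t₀, ContDiffAt ℝ 2 L (A (ζ t) + b t) :=
    hp.eventually (hL.eventually (by simp))
  have h2 : ContinuousAt (fun p => fderiv ℝ (fderiv ℝ L) p) (A (ζ t₀) + b t₀) :=
    ((hL.fderiv_right (m := 1) (by norm_num)).fderiv_right (m := 0) (by norm_num)).continuousAt
  have h3 : ContinuousAt (fun t => fderiv ℝ (fderiv ℝ L) (A (ζ t) + b t)) t₀ :=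
    ContinuousAt.comp (f := fun t => A (ζ t) + b t) h2 hp
  have h4 : ∀ u v : Cm m, ContinuousAt (fun t =>
      fderiv ℝ (fderiv ℝ L) (A (ζ t) + b t) (A u) (A v)) t₀ := fun u v =>
    (h3.clm_apply continuousAt_const).clm_apply continuousAt_const
  refine continuousAt_pi.2 fun j => continuousAt_pi.2 fun k => ?_
  have h5 : ∀ᶠ t in 𝓝 t₀, cHess (fun y => L (A y + b t)) (ζ t) j k =
      (((fderiv ℝ (fderiv ℝ L) (A (ζ t) + b t) (A (Pi.single j 1)) (A (Pi.single k 1)) +
        fderiv ℝ (fderiv ℝ L) (A (ζ t) + b t) (A (Pi.single j Complex.I))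
          (A (Pi.single k Complex.I)) : ℝ) : ℂ) +
        Complex.I * ((fderiv ℝ (fderiv ℝ L) (A (ζ t) + b t) (A (Pi.single j 1))
          (A (Pi.single k Complex.I)) -
        fderiv ℝ (fderiv ℝ L) (A (ζ t) + b t) (A (Pi.single j Complex.I))
          (A (Pi.single k 1)) : ℝ) : ℂ)) / 4 := by
    filter_upwards [h1] with t ht
    obtain ⟨h6, h7⟩ := fderiv2_aff ht
    rw [N.cHess_eq_lev h6, N.lev_apply]
    simp only [h7]
  refine ContinuousAt.congr ?_ (h5.mono fun t ht => ht.symm)
  have h8 : ∀ u v : Cm m, ContinuousAt (fun t =>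
      ((fderiv ℝ (fderiv ℝ L) (A (ζ t) + b t) (A u) (A v) : ℝ) : ℂ)) t₀ := fun u v =>
    Complex.continuous_ofReal.continuousAt.comp (h4 u v)
  simp only [Complex.ofReal_add, Complex.ofReal_sub]
  exact (((h8 _ _).add (h8 _ _)).add (continuousAt_const.mul ((h8 _ _).sub (h8 _ _)))).div_const 4

end affine

section JS

open Vale.Agent.P284.H224.D

variable {n R : ℕ} {X : Type} [TopologicalSpace X] [ChartedSpace (Cm n) X]
  {lam : X → Cm R → ℝ}

/-- the function itself -/
theorem pcont_of_JSm (hl : JSm (n := n) lam) : PCont (fun z (e : Chart n X) y => lam (e.symm y) z) :=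
  fun e x hx z => ContinuousAt.comp (f := fun q : Cm R × Cm n => (q.2, q.1)) (x := (z, e x))
    (hl e x hx z).continuousAt (by fun_prop)

/-- the linear part of `am` -/
def amL (n : ℕ) (j : Fin R) : Cm (n + 1) →L[ℝ] Cm n × Cm R :=
  ContinuousLinearMap.prod
    (ContinuousLinearMap.pi fun i => ContinuousLinearMap.proj i.castSucc)
    ((ContinuousLinearMap.single ℝ (fun _ : Fin R => ℂ) j).comp
      (ContinuousLinearMap.proj (Fin.last n)))

theorem am_eq (z : Cm R) (j : Fin R) (ζ : Cm (n + 1)) : am n z j ζ = amL n j ζ + (0, z) := by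
  unfold am amL
  ext i
  · simp [Fin.init]
  · simp [add_comm]

/-- **the bordered Hessian is jointly continuous** -/
theorem mcont_HB (hl : JSm (n := n) lam) (j : Fin R) :
    MCont (fun z (e : Chart n X) y => HB lam e z j y) := by
  intro e x hx z
  set L : Cm n × Cm R → ℝ := fun q => lam (e.symm q.1) q.2 with hL
  have h1 : ∀ q : Cm R × Cm n, HB lam e q.1 j q.2 =
      cHess (fun ζ => L (amL n j ζ + (0, q.1))) (Fin.snoc q.2 0) := by
    intro q
    unfold HB
    congr 1
    funext ζ
    rw [pj_eq, ← am_eq]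
  simp only [h1]
  have h2 : ∀ q : Cm R × Cm n, amL n j (Fin.snoc q.2 0) + (0, q.1) = (q.2, q.1) := by
    intro q
    rw [← am_eq, am_snoc]
    simp
  refine contAt_cHess_aff (T := Cm R × Cm n) (L := L) (amL n j) (b := fun q => (0, q.1))
    (ζ := fun q => Fin.snoc q.2 0) (t₀ := (z, e x)) ?_ (by fun_prop) ?_
  · rw [h2]
    exact (hl e x hx z).of_le two_le_inf
  · refine continuousAt_pi.2 fun i => ?_
    refine Fin.lastCases ?_ (fun a => ?_) i
    · simpa using continuousAt_const
    · simp only [Fin.snoc_castSucc]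
      exact ((continuous_apply a).comp continuous_snd).continuousAt

/-- the Hessian along `X` is jointly continuous -/
theorem mcont_cHess (hl : JSm (n := n) lam) :
    MCont (fun z (e : Chart n X) y => cHess (fun y => lam (e.symm y) z) y) := by
  intro e x hx z
  set L : Cm n × Cm R → ℝ := fun q => lam (e.symm q.1) q.2 with hL
  have h1 : ∀ (z : Cm R) (y : Cm n), lam (e.symm y) z =
      L (ContinuousLinearMap.inl ℝ (Cm n) (Cm R) y + (0, z)) := by
    intro z y
    simp [hL]
  simp only [h1]
  refine contAt_cHess_aff (T := Cm R × Cm n) (L := L) (ContinuousLinearMap.inl ℝ (Cm n) (Cm R))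
    (b := fun q => (0, q.1)) (ζ := fun q => q.2) (t₀ := (z, e x)) ?_ (by fun_prop) (by fun_prop)
  simpa using (hl e x hx z).of_le two_le_inf

/-- the Hessian along `ℂᴿ` is jointly continuous -/
theorem contAt_cHess_right (hl : JSm (n := n) lam) {e : Chart n X} {x : X} (hx : At e x)
    (z : Cm R) : ContinuousAt (fun q : Cm R × Cm n => cHess (fun z' => lam (e.symm q.2) z') q.1)
      (z, e x) := by
  set L : Cm n × Cm R → ℝ := fun q => lam (e.symm q.1) q.2 with hL
  have h1 : ∀ (z : Cm R) (y : Cm n), lam (e.symm y) z =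
      L (ContinuousLinearMap.inr ℝ (Cm n) (Cm R) z + (y, 0)) := by
    intro z y
    simp [hL]
  simp only [h1]
  refine contAt_cHess_aff (T := Cm R × Cm n) (L := L) (ContinuousLinearMap.inr ℝ (Cm n) (Cm R))
    (b := fun q => (q.2, 0)) (ζ := fun q => q.1) (t₀ := (z, e x)) ?_ (by fun_prop) (by fun_prop)
  simpa using (hl e x hx z).of_le two_le_inf

theorem pcont_cHess_right (hl : JSm (n := n) lam) (i j : Fin R) :
    PCont (fun z (e : Chart n X) y => (cHess (fun z' => lam (e.symm y) z') z i j).re) :=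
  fun _ _ hx z => (Complex.continuous_re.continuousAt).comp
    (continuousAt_pi.1 (continuousAt_pi.1 (contAt_cHess_right hl hx z) i) j)

/-- a metric, as a constant family -/
theorem mcont_metric {T : Type*} [TopologicalSpace T]
    {w : Chart n X → Cm n → Matrix (Fin n) (Fin n) ℂ} (hw : IsHermitian w) :
    MCont (fun _ : T => w) :=
  MCont.const fun e x hx i j => (hw.smooth e x hx i j).continuousAt

/-- bordering by zero -/
theorem MCont.hat {T : Type*} [TopologicalSpace T]
    {F : T → Chart n X → Cm n → Matrix (Fin n) (Fin n) ℂ} (h : MCont F) :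
    MCont (fun t e y => hatM (F t e y)) := by
  refine MCont.of_entries fun i j e x hx t => ?_
  refine Fin.lastCases ?_ (fun a => ?_) i
  · refine Fin.lastCases ?_ (fun b => ?_) j
    · simpa using continuousAt_const
    · simpa using continuousAt_const
  · refine Fin.lastCases ?_ (fun b => ?_) j
    · simpa using continuousAt_const
    · simpa using h.entry a b hx t

end JS

end Vale.Agent.P284.H619.D
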