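import Vale.Agent.P272.K.INT.Dens

/-! # The integral of a nonnegative density is at least its integral over a part of a chart -/

open scoped Manifold ContDiff Topology
open MeasureTheory Set Filter Metric Vale.Agent.P272.K Vale.Agent.P272.K.INT

noncomputable section

namespace Vale.Agent.P284.H619.D

variable {n : ℕ} {X : Type*} [TopologicalSpace X] [ChartedSpace (Cm n) X]
  [IsManifold 𝓘(ℂ, Cm n) ω X] [T2Space X] [CompactSpace X]

/-- compact subsets of a chart image -/
theorem setIntegral_le_intX {D : Chart n X → Cm n → ℝ} (hD : IsDensity D)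
    (hpos : ∀ e x, At e x → 0 ≤ D e (e x)) {e : Chart n X} (he : e ∈ atlas (Cm n) X)
    {K : Set (Cm n)} (hK : IsCompact K) (hKe : K ⊆ e.target) : ∫ z in K, D e z ≤ intX D := by
  have hKc : IsCompact (e.symm '' K) := hK.image_of_continuousOn (e.continuousOn_symm.mono hKe)
  have hKs : e.symm '' K ⊆ e.source := by
    rintro _ ⟨z, hz, rfl⟩; exact e.map_target (hKe hz)
  obtain ⟨f, hf1, hf2, hf3⟩ := exists_tsupport_one_of_isOpen_isClosed e.open_source
    isClosed_closure.isCompact hKc.isClosed hKs
  have hD' : IsDensity (fun e z => f (e.symm z) * D e z) := hD.smul f.continuous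
  have h0 : ∀ z ∈ e.target, 0 ≤ D e z := by
    intro z hz
    have := hpos e (e.symm z) ⟨he, e.map_target hz⟩
    rwa [e.right_inv hz] at this
  have h1 : intX (fun e z => f (e.symm z) * D e z) ≤ intX D := by
    refine intX_mono hD' hD fun e' x hx => ?_
    rw [e'.left_inv hx.2]
    have := hpos e' x hx
    have := (hf3 x).2
    nlinarith
  have h2 : intX (fun e z => f (e.symm z) * D e z) = ∫ z in e.target, f (e.symm z) * D e z :=
    intX_of_support hD' he (isClosed_tsupport f) hf1 fun e' x hx hxK => by
      rw [e'.left_inv hx.2, image_eq_zero_of_notMem_tsupport hxK, zero_mul]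
  have hint : IntegrableOn (fun z => f (e.symm z) * D e z) e.target := by
    refine integrableOn_chart (X := X) (hD'.continuousOn he) (isClosed_tsupport f) hf1
      fun z hz hzK => ?_
    rw [image_eq_zero_of_notMem_tsupport hzK, zero_mul]
  have h3 : ∫ z in K, D e z = ∫ z in K, f (e.symm z) * D e z := by
    refine setIntegral_congr_fun hK.measurableSet fun z hz => ?_
    show D e z = f (e.symm z) * D e z
    rw [hf2 ⟨z, hz, rfl⟩, Pi.one_apply, one_mul]
  rw [h3]
  refine le_trans ?_ (h2 ▸ h1)
  refine setIntegral_mono_set hint ?_ (LE.le.eventuallyLE hKe)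
  filter_upwards [ae_restrict_mem e.open_target.measurableSet] with z hz
  exact mul_nonneg (hf3 _).1 (h0 z hz)

/-- closed balls -/
theorem closedBall_le_intX {D : Chart n X → Cm n → ℝ} (hD : IsDensity D)
    (hpos : ∀ e x, At e x → 0 ≤ D e (e x)) {e : Chart n X} (he : e ∈ atlas (Cm n) X)
    {p : Cm n} {r : ℝ} (hsub : closedBall p r ⊆ e.target) :
    ∫ z in closedBall p r, D e z ≤ intX D :=
  setIntegral_le_intX hD hpos he (isCompact_closedBall p r) hsub

/-- open balls -/
theorem ball_le_intX {D : Chart n X → Cm n → ℝ} (hD : IsDensity D)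
    (hpos : ∀ e x, At e x → 0 ≤ D e (e x)) {e : Chart n X} (he : e ∈ atlas (Cm n) X)
    {p : Cm n} {r : ℝ} (hsub : closedBall p r ⊆ e.target) :
    ∫ z in ball p r, D e z ≤ intX D := by
  refine le_trans ?_ (closedBall_le_intX hD hpos he hsub)
  refine setIntegral_mono_set ?_ ?_ (LE.le.eventuallyLE ball_subset_closedBall)
  · exact ((hD.continuousOn he).mono hsub).integrableOn_compact (isCompact_closedBall p r)
  · filter_upwards [ae_restrict_mem measurableSet_closedBall] with z hz
    have := hpos e (e.symm z) ⟨he, e.map_target (hsub hz)⟩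
    rwa [e.right_inv (hsub hz)] at this

/-- the comparison with another function on a measurable part of a compact subset of a chart -/
theorem le_intX_of_le {D : Chart n X → Cm n → ℝ} (hD : IsDensity D)
    (hpos : ∀ e x, At e x → 0 ≤ D e (e x)) {e : Chart n X} (he : e ∈ atlas (Cm n) X)
    {K : Set (Cm n)} (hK : IsCompact K) (hKe : K ⊆ e.target) {g : Cm n → ℝ}
    (hg : IntegrableOn g K) (hle : ∀ z ∈ K, g z ≤ D e z) : ∫ z in K, g z ≤ intX D := by
  refine le_trans ?_ (setIntegral_le_intX hD hpos he hK hKe)
  exact setIntegral_mono_on hg (((hD.continuousOn he).mono hKe).integrableOn_compact hK)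
    hK.measurableSet hle

end Vale.Agent.P284.H619.D
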