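import Vale.Agent.P284.H661.D.Defs
import Vale.Agent.P284.H619.D.Smo
import Mathlib.MeasureTheory.Integral.DominatedConvergence

/-! # Continuity of `Hz` and `uz` -/

open scoped Manifold ContDiff Topology
open MeasureTheory Set Filter Vale.Agent.P272.K Vale.Agent.P272.K.INT
open Vale.Agent.P284.H224.D Vale.Agent.P284.H661.D

noncomputable section

namespace Vale.Agent.P284.H619.D

variable {n R : ℕ} {X : Type} [TopologicalSpace X] [ChartedSpace (Cm n) X]

/-- joint continuity of `cfd` -/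
theorem pcont_cfd {T : Type*} [TopologicalSpace T] {m : ℕ} (s : ℕ)
    {A B : T → Chart n X → Cm n → Matrix (Fin m) (Fin m) ℂ} (hA : MCont A) (hB : MCont B) :
    PCont (fun t e y => cfd s (A t e y) (B t e y)) := by
  unfold cfd
  refine PCont.sum fun l _ => ?_
  have h1 : PCont (fun t (e : Chart n X) y => (A t e y + (((l : ℕ) : ℝ) : ℂ) • B t e y).det.re) :=
    (hA.add (MCont.smul continuous_const hB)).det_re
  exact (PCont.const fun _ _ _ => continuousAt_const).mul h1

variable {C : ℝ} {W : Chart n X → Cm n → Matrix (Fin n) (Fin n) ℂ} {psi : X → ℝ}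
  {lam : X → Cm R → ℝ}

theorem mcont_KJ (hW : IsHermitian W) (hl : JSm (n := n) lam) (j : Fin R) :
    MCont (fun z (e : Chart n X) y => KJ C W lam e y z j) := by
  unfold KJ
  exact (MCont.smul continuous_const (mcont_metric hW).hat).add (mcont_HB hl j)

/-- `(t, z) ↦ M_t(z)` is jointly continuous -/
theorem mcont_MT (hW : IsHermitian W) (hp : SmoothFn (n := n) psi) (hl : JSm (n := n) lam) :
    MCont (fun (q : ℝ × Cm R) (e : Chart n X) y => MT C W psi lam q.1 e y q.2) := by
  unfold MT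
  refine (MCont.smul continuous_const (mcont_metric hW)).add ?_
  rintro e x hx ⟨t, z⟩
  set L : Cm n × (ℝ × Cm R) → ℝ := fun q =>
    psi (e.symm q.1) + q.2.1 * (lam (e.symm q.1) q.2.2 - psi (e.symm q.1)) with hL
  have h1 : ∀ (q : ℝ × Cm R) (y : Cm n),
      psi (e.symm y) + q.1 * (lam (e.symm y) q.2 - psi (e.symm y)) =
      L (ContinuousLinearMap.inl ℝ (Cm n) (ℝ × Cm R) y + (0, q)) := by
    intro q y
    simp [hL]
  simp only [h1]
  refine contAt_cHess_aff (T := (ℝ × Cm R) × Cm n) (L := L)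
    (ContinuousLinearMap.inl ℝ (Cm n) (ℝ × Cm R))
    (b := fun q => (0, q.1)) (ζ := fun q => q.2) (t₀ := ((t, z), e x)) ?_ (by fun_prop)
    (by fun_prop)
  have h2 : ContinuousLinearMap.inl ℝ (Cm n) (ℝ × Cm R) (e x) + (0, (t, z)) = (e x, (t, z)) := by
    simp
  rw [h2]
  have h3 : ContDiffAt ℝ 2 (fun q : Cm n × (ℝ × Cm R) => psi (e.symm q.1)) (e x, (t, z)) :=
    ((hp e x hx).of_le two_le_inf).comp (e x, (t, z)) (g := fun y => psi (e.symm y))
      contDiffAt_fst
  have h4 : ContDiffAt ℝ 2 (fun q : Cm n × (ℝ × Cm R) => lam (e.symm q.1) q.2.2)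
      (e x, (t, z)) :=
    ((hl e x hx z).of_le two_le_inf).comp (e x, (t, z))
      (g := fun q : Cm n × Cm R => lam (e.symm q.1) q.2)
      (contDiffAt_fst.prodMk (contDiffAt_snd.comp (e x, (t, z)) contDiffAt_snd))
  have h5 : ContDiffAt ℝ 2 (fun q : Cm n × (ℝ × Cm R) => q.2.1) (e x, (t, z)) :=
    contDiffAt_fst.comp (e x, (t, z)) contDiffAt_snd
  exact h3.add (h5.mul (h4.sub h3))

/-- the integrand of `uz` -/
theorem pcont_uz (hW : IsHermitian W) (hp : SmoothFn (n := n) psi) (hl : JSm (n := n) lam)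
    (d₁ : ℕ) : PCont (fun (q : ℝ × Cm R) (e : Chart n X) y =>
      (lam (e.symm y) q.2 - psi (e.symm y)) * cfd d₁ (MT C W psi lam q.1 e y q.2) (W e y)) := by
  refine PCont.mul (PCont.sub ?_ ?_) (pcont_cfd d₁ (mcont_MT hW hp hl) (mcont_metric hW))
  · exact (pcont_of_JSm hl).comp (g := fun q : ℝ × Cm R => q.2) continuous_snd
  · exact PCont.const fun e x hx => (hp e x hx).continuousAt

/-- the integrand of `Hz` -/
theorem pcont_Hz (hW : IsHermitian W) (hl : JSm (n := n) lam) (d₁ : ℕ) (j : Fin R) :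
    PCont (fun (z : Cm R) (e : Chart n X) y => cfd d₁ (KJ C W lam e y z j) (hatM (W e y))) :=
  pcont_cfd d₁ (mcont_KJ hW hl j) (mcont_metric hW).hat

variable [T2Space X] [CompactSpace X] [IsManifold 𝓘(ℂ, Cm n) ω X]

theorem Hz_cont (hW : IsHermitian W) (hl : JSm (n := n) lam) (d₁ : ℕ) :
    Continuous (Hz d₁ C W lam) := by
  unfold Hz
  exact continuous_finsetSum _ fun j _ => continuous_intX (pcont_Hz hW hl d₁ j)

theorem uz_cont (hW : IsHermitian W) (hp : SmoothFn (n := n) psi) (hl : JSm (n := n) lam)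
    (d₁ : ℕ) : Continuous (uz d₁ C W psi lam) := by
  unfold uz
  have h1 := continuous_intX (pcont_uz (C := C) hW hp hl d₁)
  exact intervalIntegral.continuous_parametric_intervalIntegral_of_continuous'
    (f := fun (z : Cm R) (t : ℝ) => intX fun (e : Chart n X) y =>
      (lam (e.symm y) z - psi (e.symm y)) * cfd d₁ (MT C W psi lam t e y z) (W e y))
    (h1.comp continuous_swap) 0 1

end Vale.Agent.P284.H619.D
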